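import Vale.Agent.P144Z.E1.Easy

/-!
The energy estimates in an arbitrary gauge field.
-/

namespace Vale.Agent.P144Z

open Finset Matrix

namespace E1

variable {M : ℕ} [NeZero M]

/-- The north-east corner variable. -/
def uu (g : Tor M × Fin 4 → ℝ) (x : Tor M) : ℝ := -g (x, 0) + g (x, 1) + g (x, 2) + g (x, 3)

/-- The south-west corner variable. -/
def vv (g : Tor M × Fin 4 → ℝ) (x : Tor M) : ℝ := -g (x, 0) - g (x, 1) - g (x, 2) + g (x, 3)

/-- The massive part of the south-east corner variable. -/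
noncomputable def pp (g : Tor M × Fin 4 → ℝ) (x : Tor M) : ℝ :=
  √2 * (g (x, 0) + g (x, 1) + g (x, 2) + g (x, 3)) + uu g x - vv g x

/-- The massive part of the north-west corner variable. -/
noncomputable def qq (g : Tor M × Fin 4 → ℝ) (x : Tor M) : ℝ :=
  √2 * (-g (x, 0) - g (x, 1) + g (x, 2) + g (x, 3)) + uu g x + vv g x

/-- The squared covariant gradient of a scalar field. -/
def gs (A : Gauge M) (F : Tor M → ℝ) : ℝ :=
  ∑ x, ((A (x, 0) * F (x + uv M 0) - F x) ^ 2 + (A (x, 1) * F (x + uv M 1) - F x) ^ 2)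

/-- The defect of the first equation. -/
def r1 (A : Gauge M) (u v : Tor M → ℝ) (y : Tor M) : ℝ :=
  A (y + uv M 1, 0) * v (y + uv M 0 + uv M 1) - v (y + uv M 1) - u (y + uv M 1) + A (y, 1) * u y

/-- The defect of the second equation. -/
def r2 (A : Gauge M) (u v : Tor M → ℝ) (y : Tor M) : ℝ :=
  A (y + uv M 0, 1) * v (y + uv M 0 + uv M 1) - v (y + uv M 0) + u (y + uv M 0) - A (y, 0) * u y

/-- The flux term. -/
def fl (A : Gauge M) (u v : Tor M → ℝ) (y : Tor M) : ℝ :=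
  (A (y, 0) * A (y + uv M 0, 1) - A (y + uv M 1, 0) * A (y, 1)) * u y * v (y + uv M 0 + uv M 1)

theorem tele (F : Tor M → ℝ) (e : Tor M) : ∑ x, (F (x + e) - F x) = 0 := by
  rw [Finset.sum_sub_distrib, sum_shift, sub_self]

/-- The energy identity. -/
theorem en_eq {A : Gauge M} (hA : IsSign A) (u v : Tor M → ℝ) :
    gs A u + gs A v = ∑ y, r1 A u v y ^ 2 + ∑ y, r2 A u v y ^ 2 + 2 * ∑ y, fl A u v y := by
  set al : Tor M → ℝ := fun x => 2 * (A (x, 0) * u x * v (x + uv M 0)) - 2 * (u x * v x) -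
    (A (x, 0) * v (x + uv M 0) - v x) ^ 2 with hal
  set be : Tor M → ℝ := fun x => -2 * (A (x, 1) * u x * v (x + uv M 1)) + 2 * (u x * v x) -
    (A (x, 1) * v (x + uv M 1) - v x) ^ 2 with hbe
  have h1 := tele al (uv M 1)
  have h2 := tele be (uv M 0)
  have key : gs A u + gs A v = ∑ y, (r1 A u v y ^ 2 + r2 A u v y ^ 2 + 2 * fl A u v y +
      (al (y + uv M 1) - al y) + (be (y + uv M 0) - be y)) := by
    unfold gs
    rw [← Finset.sum_add_distrib]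
    refine Finset.sum_congr rfl fun y _ => ?_
    have a0 := E4.sign_sq hA (y, 0)
    have b0 := E4.sign_sq hA (y, 1)
    simp only [hal, hbe, r1, r2, fl, add_right_comm y (uv M 1) (uv M 0)]
    linear_combination (u (y + uv M 0) ^ 2 - u y ^ 2) * a0 + (u (y + uv M 1) ^ 2 - u y ^ 2) * b0
  rw [key]
  simp only [Finset.sum_add_distrib, h1, h2, ← Finset.mul_sum, add_zero]

/-- The flux term is small. -/
theorem fl_eq {A : Gauge M} (hA : IsSign A) (u v : Tor M → ℝ) :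
    ∑ y, fl A u v y =
      ∑ y, r1 A u v y * -(A (y + uv M 1, 0) * v (y + uv M 0 + uv M 1) + v (y + uv M 1)) +
        ∑ y, r2 A u v y * (u (y + uv M 0) + A (y, 0) * u y) := by
  set al : Tor M → ℝ := fun x => -(A (x, 0) * u x * v (x + uv M 0)) - u x * v x with hal
  set be : Tor M → ℝ := fun x => -(A (x, 1) * u x * v (x + uv M 1)) + u x * v x - u x ^ 2 +
    v (x + uv M 1) ^ 2 with hbe
  have h1 := tele al (uv M 1)
  have h2 := tele be (uv M 0)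
  have key : ∑ y, fl A u v y = ∑ y,
      (r1 A u v y * -(A (y + uv M 1, 0) * v (y + uv M 0 + uv M 1) + v (y + uv M 1)) +
        r2 A u v y * (u (y + uv M 0) + A (y, 0) * u y) +
      (al (y + uv M 1) - al y) + (be (y + uv M 0) - be y)) := by
    refine Finset.sum_congr rfl fun y _ => ?_
    have a0 := E4.sign_sq hA (y, 0)
    have a2 := E4.sign_sq hA (y + uv M 1, 0)
    simp only [hal, hbe, r1, r2, fl, add_right_comm y (uv M 1) (uv M 0)]
    linear_combination (u y ^ 2) * a0 + (v (y + uv M 0 + uv M 1) ^ 2) * a2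
  rw [key]
  simp only [Finset.sum_add_distrib, h1, h2, add_zero]

theorem r1_eq {A : Gauge M} (hA : IsSign A) (g : Tor M × Fin 4 → ℝ) (y : Tor M) :
    r1 A (uu g) (vv g) y = -((1 + √2) * (Dm A *ᵥ g) (y + uv M 1, 0)) +
      A (y + uv M 1, 0) * (Dm A *ᵥ g) (y + uv M 0 + uv M 1, 2) -
      (1 + √2) * (Dm A *ᵥ g) (y + uv M 1, 3) + A (y, 1) * (Dm A *ᵥ g) (y, 1) := by
  have a2 := E4.sign_sq hA (y + uv M 1, 0)
  have b0 := E4.sign_sq hA (y, 1)
  have e : y + uv M 0 + uv M 1 - uv M 0 = y + uv M 1 := by abel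
  rw [E4.Dm0, E4.Dm1, E4.Dm2, E4.Dm3, e, add_sub_cancel_right, add_right_comm y (uv M 1) (uv M 0)]
  simp only [r1, uu, vv, tc]
  linear_combination ((√2 - 1) * g (y + uv M 1, 0)) * a2 - ((√2 - 1) * g (y + uv M 1, 3)) * b0 +
    (A (y + uv M 1, 0) * g (y + uv M 0 + uv M 1, 2) - A (y, 1) * g (y, 1)) * sq2

theorem r2_eq {A : Gauge M} (hA : IsSign A) (g : Tor M × Fin 4 → ℝ) (y : Tor M) :
    r2 A (uu g) (vv g) y = (1 + √2) * (Dm A *ᵥ g) (y + uv M 0, 1) +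
      A (y + uv M 0, 1) * (Dm A *ᵥ g) (y + uv M 0 + uv M 1, 3) -
      (1 + √2) * (Dm A *ᵥ g) (y + uv M 0, 2) - A (y, 0) * (Dm A *ᵥ g) (y, 0) := by
  have b1 := E4.sign_sq hA (y + uv M 0, 1)
  have a0 := E4.sign_sq hA (y, 0)
  rw [E4.Dm0, E4.Dm1, E4.Dm2, E4.Dm3, add_sub_cancel_right, add_sub_cancel_right]
  simp only [r2, uu, vv, tc]
  linear_combination ((√2 - 1) * g (y + uv M 0, 1)) * b1 + ((√2 - 1) * g (y + uv M 0, 2)) * a0 -
    (A (y + uv M 0, 1) * g (y + uv M 0 + uv M 1, 3) + A (y, 0) * g (y, 0)) * sq2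

theorem pp_eq {A : Gauge M} (hA : IsSign A) (g : Tor M × Fin 4 → ℝ) (x : Tor M) :
    pp g x = (A (x, 0) * vv g (x + uv M 0) - vv g x) + (1 + √2) * (Dm A *ᵥ g) (x, 0) -
      A (x, 0) * (Dm A *ᵥ g) (x + uv M 0, 2) := by
  have a0 := E4.sign_sq hA (x, 0)
  rw [E4.Dm0, E4.Dm2, add_sub_cancel_right]
  simp only [pp, uu, vv, tc]
  linear_combination (-(√2 - 1) * g (x, 0)) * a0 - (A (x, 0) * g (x + uv M 0, 2)) * sq2

theorem qq_eq {A : Gauge M} (hA : IsSign A) (g : Tor M × Fin 4 → ℝ) (x : Tor M) :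
    qq g x = -(A (x, 1) * vv g (x + uv M 1) - vv g x) + (1 + √2) * (Dm A *ᵥ g) (x, 1) +
      A (x, 1) * (Dm A *ᵥ g) (x + uv M 1, 3) := by
  have b0 := E4.sign_sq hA (x, 1)
  rw [E4.Dm1, E4.Dm3, add_sub_cancel_right]
  simp only [qq, uu, vv, tc]
  linear_combination ((√2 - 1) * g (x, 1)) * b0 - (A (x, 1) * g (x + uv M 1, 3)) * sq2

theorem big_sq (t : ℝ) : ((1 + √2) * t) ^ 2 ≤ 6 * t ^ 2 := by
  have h := sq2
  have h0 : (0 : ℝ) ≤ √2 := Real.sqrt_nonneg _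
  have h1 : (1 + √2) ^ 2 ≤ (6 : ℝ) := by nlinarith
  rw [mul_pow]
  exact mul_le_mul_of_nonneg_right h1 (sq_nonneg _)

theorem sgn_sq {a : ℝ} (ha : a * a = 1) (t : ℝ) : (a * t) ^ 2 = t ^ 2 := by
  linear_combination (t ^ 2) * ha

theorem sq3_le (a b c : ℝ) : (a + b + c) ^ 2 ≤ 3 * (a ^ 2 + b ^ 2 + c ^ 2) := by
  nlinarith [sq_nonneg (a - b), sq_nonneg (a - c), sq_nonneg (b - c)]

theorem sq4_le (a b c d : ℝ) : (a + b + c + d) ^ 2 ≤ 4 * (a ^ 2 + b ^ 2 + c ^ 2 + d ^ 2) := by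
  nlinarith [sq_nonneg (a - b), sq_nonneg (a - c), sq_nonneg (b - c), sq_nonneg (a - d),
    sq_nonneg (b - d), sq_nonneg (c - d)]

theorem l2sq_four (g : Tor M × Fin 4 → ℝ) : l2sq univ g =
    ∑ x, g (x, 0) ^ 2 + ∑ x, g (x, 1) ^ 2 + ∑ x, g (x, 2) ^ 2 + ∑ x, g (x, 3) ^ 2 := by
  simp only [l2sq, Fin.sum_univ_four, Finset.sum_add_distrib]

theorem r1_le {A : Gauge M} (hA : IsSign A) (g : Tor M × Fin 4 → ℝ) :
    ∑ y, r1 A (uu g) (vv g) y ^ 2 ≤ 24 * l2sq univ (Dm A *ᵥ g) := by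
  set h := Dm A *ᵥ g with hh
  have key : ∀ y, r1 A (uu g) (vv g) y ^ 2 ≤ 24 * (h (y + uv M 1, 0) ^ 2 + h (y, 1) ^ 2 +
      h (y + (uv M 0 + uv M 1), 2) ^ 2 + h (y + uv M 1, 3) ^ 2) := by
    intro y
    rw [r1_eq hA, ← hh, ← add_assoc]
    have k := sq4_le (-((1 + √2) * h (y + uv M 1, 0)))
      (A (y + uv M 1, 0) * h (y + uv M 0 + uv M 1, 2)) (-((1 + √2) * h (y + uv M 1, 3)))
      (A (y, 1) * h (y, 1))
    rw [neg_sq, neg_sq, sgn_sq (E4.sign_sq hA _), sgn_sq (E4.sign_sq hA _), ← sub_eq_add_neg] at k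
    have k1 := big_sq (h (y + uv M 1, 0))
    have k2 := big_sq (h (y + uv M 1, 3))
    nlinarith [sq_nonneg (h (y, 1)), sq_nonneg (h (y + uv M 0 + uv M 1, 2))]
  refine (Finset.sum_le_sum fun y _ => key y).trans (le_of_eq ?_)
  rw [← Finset.mul_sum, l2sq_four]
  simp only [Finset.sum_add_distrib]
  rw [sum_shift fun x => h (x, 0) ^ 2, sum_shift fun x => h (x, 2) ^ 2,
    sum_shift fun x => h (x, 3) ^ 2]

theorem r2_le {A : Gauge M} (hA : IsSign A) (g : Tor M × Fin 4 → ℝ) :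
    ∑ y, r2 A (uu g) (vv g) y ^ 2 ≤ 24 * l2sq univ (Dm A *ᵥ g) := by
  set h := Dm A *ᵥ g with hh
  have key : ∀ y, r2 A (uu g) (vv g) y ^ 2 ≤ 24 * (h (y, 0) ^ 2 + h (y + uv M 0, 1) ^ 2 +
      h (y + uv M 0, 2) ^ 2 + h (y + (uv M 0 + uv M 1), 3) ^ 2) := by
    intro y
    rw [r2_eq hA, ← hh, ← add_assoc]
    have k := sq4_le ((1 + √2) * h (y + uv M 0, 1))
      (A (y + uv M 0, 1) * h (y + uv M 0 + uv M 1, 3)) (-((1 + √2) * h (y + uv M 0, 2)))
      (-(A (y, 0) * h (y, 0)))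
    rw [neg_sq, neg_sq, sgn_sq (E4.sign_sq hA _), sgn_sq (E4.sign_sq hA _), ← sub_eq_add_neg,
      ← sub_eq_add_neg] at k
    have k1 := big_sq (h (y + uv M 0, 1))
    have k2 := big_sq (h (y + uv M 0, 2))
    nlinarith [sq_nonneg (h (y, 0)), sq_nonneg (h (y + uv M 0 + uv M 1, 3))]
  refine (Finset.sum_le_sum fun y _ => key y).trans (le_of_eq ?_)
  rw [← Finset.mul_sum, l2sq_four]
  simp only [Finset.sum_add_distrib]
  rw [sum_shift fun x => h (x, 1) ^ 2, sum_shift fun x => h (x, 2) ^ 2,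
    sum_shift fun x => h (x, 3) ^ 2]

theorem pq_le {A : Gauge M} (hA : IsSign A) (g : Tor M × Fin 4 → ℝ) :
    ∑ x, pp g x ^ 2 + ∑ x, qq g x ^ 2 ≤ 3 * gs A (vv g) + 18 * l2sq univ (Dm A *ᵥ g) := by
  set h := Dm A *ᵥ g with hh
  have key : ∀ x, pp g x ^ 2 + qq g x ^ 2 ≤ 3 * ((A (x, 0) * vv g (x + uv M 0) - vv g x) ^ 2 +
      (A (x, 1) * vv g (x + uv M 1) - vv g x) ^ 2) + 18 * (h (x, 0) ^ 2 + h (x, 1) ^ 2 +
      h (x + uv M 0, 2) ^ 2 + h (x + uv M 1, 3) ^ 2) := by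
    intro x
    rw [pp_eq hA, qq_eq hA, ← hh]
    have k := sq3_le (A (x, 0) * vv g (x + uv M 0) - vv g x) ((1 + √2) * h (x, 0))
      (-(A (x, 0) * h (x + uv M 0, 2)))
    have k' := sq3_le (-(A (x, 1) * vv g (x + uv M 1) - vv g x)) ((1 + √2) * h (x, 1))
      (A (x, 1) * h (x + uv M 1, 3))
    rw [neg_sq, sgn_sq (E4.sign_sq hA _), ← sub_eq_add_neg] at k
    rw [neg_sq, sgn_sq (E4.sign_sq hA _)] at k'
    have k1 := big_sq (h (x, 0))
    have k2 := big_sq (h (x, 1))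
    nlinarith [sq_nonneg (h (x + uv M 0, 2)), sq_nonneg (h (x + uv M 1, 3))]
  rw [← Finset.sum_add_distrib]
  refine (Finset.sum_le_sum fun y _ => key y).trans (le_of_eq ?_)
  rw [Finset.sum_add_distrib, ← Finset.mul_sum, ← Finset.mul_sum, l2sq_four, gs]
  simp only [Finset.sum_add_distrib]
  rw [sum_shift fun x => h (x, 2) ^ 2, sum_shift fun x => h (x, 3) ^ 2]

omit [NeZero M] in
/-- The gradient of the four components along one edge. -/
theorem edge_le {a : ℝ} (ha : a * a = 1) (g : Tor M × Fin 4 → ℝ) (x y : Tor M) :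
    ∑ c, (a * g (y, c) - g (x, c)) ^ 2 ≤
      4 * ((a * uu g y - uu g x) ^ 2 + (a * vv g y - vv g x) ^ 2) +
        3 * (pp g y ^ 2 + pp g x ^ 2 + qq g y ^ 2 + qq g x ^ 2) := by
  rw [Fin.sum_univ_four]
  obtain ⟨d0, e0⟩ : ∃ d, d = a * g (y, 0) - g (x, 0) := ⟨_, rfl⟩
  obtain ⟨d1, e1⟩ : ∃ d, d = a * g (y, 1) - g (x, 1) := ⟨_, rfl⟩
  obtain ⟨d2, e2⟩ : ∃ d, d = a * g (y, 2) - g (x, 2) := ⟨_, rfl⟩
  obtain ⟨d3, e3⟩ : ∃ d, d = a * g (y, 3) - g (x, 3) := ⟨_, rfl⟩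
  have hU : a * uu g y - uu g x = -d0 + d1 + d2 + d3 := by
    rw [e0, e1, e2, e3]; unfold uu; ring
  have hV : a * vv g y - vv g x = -d0 - d1 - d2 + d3 := by
    rw [e0, e1, e2, e3]; unfold vv; ring
  have hP : √2 * (d0 + d1 + d2 + d3) = (a * pp g y - pp g x) + -(a * uu g y - uu g x) +
      (a * vv g y - vv g x) := by
    rw [e0, e1, e2, e3]; unfold pp; ring
  have hQ : √2 * (-d0 - d1 + d2 + d3) = (a * qq g y - qq g x) + -(a * uu g y - uu g x) +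
      -(a * vv g y - vv g x) := by
    rw [e0, e1, e2, e3]; unfold qq; ring
  have kP := sq3_le (a * pp g y - pp g x) (-(a * uu g y - uu g x)) (a * vv g y - vv g x)
  have kQ := sq3_le (a * qq g y - qq g x) (-(a * uu g y - uu g x)) (-(a * vv g y - vv g x))
  rw [← hP, mul_pow, Real.sq_sqrt (by norm_num), neg_sq] at kP
  rw [← hQ, mul_pow, Real.sq_sqrt (by norm_num), neg_sq, neg_sq] at kQ
  have lP : (a * pp g y - pp g x) ^ 2 ≤ 2 * (pp g y ^ 2 + pp g x ^ 2) := by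
    rw [← sgn_sq ha (pp g y)]
    nlinarith [sq_nonneg (a * pp g y + pp g x)]
  have lQ : (a * qq g y - qq g x) ^ 2 ≤ 2 * (qq g y ^ 2 + qq g x ^ 2) := by
    rw [← sgn_sq ha (qq g y)]
    nlinarith [sq_nonneg (a * qq g y + qq g x)]
  have m : d0 ^ 2 + d1 ^ 2 + d2 ^ 2 + d3 ^ 2 ≤ (d0 + d1 + d2 + d3) ^ 2 +
      (-d0 + d1 + d2 + d3) ^ 2 + (-d0 - d1 + d2 + d3) ^ 2 + (-d0 - d1 - d2 + d3) ^ 2 := by
    nlinarith [sq_nonneg (d1 + d2 + d3), sq_nonneg (-d0 + d2 + d3), sq_nonneg (-d0 - d1 + d3),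
      sq_nonneg (d0 + d1 + d2)]
  rw [← e0, ← e1, ← e2, ← e3]
  rw [← hU, ← hV] at m
  linarith

theorem gradsq_le {A : Gauge M} (hA : IsSign A) (g : Tor M × Fin 4 → ℝ) :
    gradsq A univ g ≤ 40 * (gs A (uu g) + gs A (vv g)) + 216 * l2sq univ (Dm A *ᵥ g) := by
  have h1 : gradsq A univ g ≤ 4 * (gs A (uu g) + gs A (vv g)) +
      12 * (∑ x, pp g x ^ 2 + ∑ x, qq g x ^ 2) := by
    unfold gradsq
    simp only [Fin.sum_univ_two]
    refine (Finset.sum_le_sum fun x _ => add_le_add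
      (edge_le (E4.sign_sq hA (x, 0)) g x (x + uv M 0))
      (edge_le (E4.sign_sq hA (x, 1)) g x (x + uv M 1))).trans (le_of_eq ?_)
    simp only [gs, Finset.sum_add_distrib, ← Finset.mul_sum]
    rw [sum_shift fun x => pp g x ^ 2, sum_shift fun x => pp g x ^ 2,
      sum_shift fun x => qq g x ^ 2, sum_shift fun x => qq g x ^ 2]
    ring
  have h2 := pq_le hA g
  have h3 : 0 ≤ gs A (uu g) := Finset.sum_nonneg fun _ _ => by positivity
  linarith

theorem main_le {A : Gauge M} (hA : IsSign A) (g : Tor M × Fin 4 → ℝ) :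
    gradsq A univ g ≤ 2136 * l2sq univ (Dm A *ᵥ g) + 80 * ∑ y, fl A (uu g) (vv g) y := by
  have h1 := gradsq_le hA g
  have h2 := en_eq hA (uu g) (vv g)
  have h3 := r1_le hA g
  have h4 := r2_le hA g
  linarith

omit [NeZero M] in
theorem mem_plus {B : Finset (Tor M)} {x y : Tor M} (hx : x ∈ B)
    (h : y = x ∨ y = x + uv M 0 ∨ y = x - uv M 0 ∨ y = x + uv M 1 ∨ y = x - uv M 1) :
    y ∈ plus B := by
  unfold plus star
  simp only [Finset.mem_biUnion, Finset.mem_insert, Finset.mem_singleton]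
  exact ⟨x, hx, h⟩

/-- Cauchy-Schwarz with supports. -/
theorem cs_le {R a F : Tor M → ℝ} (ha : ∀ y, a y * a y = 1) (e e' : Tor M) (B : Finset (Tor M))
    (hB : ∀ y, R y ≠ 0 → y + e ∈ B ∧ y + e' ∈ B) {H L : ℝ} (hH : ∑ y, R y ^ 2 ≤ 24 * H)
    (hL : ∑ x ∈ B, F x ^ 2 ≤ 4 * L) :
    |∑ y, R y * (a y * F (y + e) + F (y + e'))| ≤ 20 * (√L * √H) := by
  classical
  set G : Tor M → ℝ := fun x => if x ∈ B then F x else 0 with hG
  have h1 : ∑ y, R y * (a y * F (y + e) + F (y + e')) =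
      ∑ y, R y * (a y * G (y + e) + G (y + e')) := by
    refine Finset.sum_congr rfl fun y _ => ?_
    by_cases h : R y = 0
    · rw [h, zero_mul, zero_mul]
    · simp only [hG, if_pos (hB y h).1, if_pos (hB y h).2]
  have h2 : ∑ x, G x ^ 2 = ∑ x ∈ B, F x ^ 2 := by
    simp only [hG, ite_pow, ne_eq, OfNat.ofNat_ne_zero, not_false_eq_true, zero_pow,
      Finset.sum_ite_mem, Finset.univ_inter]
  have h3 : ∑ y, (a y * G (y + e) + G (y + e')) ^ 2 ≤ 16 * L := by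
    have k : ∀ y, (a y * G (y + e) + G (y + e')) ^ 2 ≤ 2 * (G (y + e) ^ 2 + G (y + e') ^ 2) := by
      intro y
      rw [← sgn_sq (ha y) (G (y + e))]
      nlinarith [sq_nonneg (a y * G (y + e) - G (y + e'))]
    refine (Finset.sum_le_sum fun y _ => k y).trans ?_
    rw [← Finset.mul_sum, Finset.sum_add_distrib, sum_shift fun x => G x ^ 2,
      sum_shift fun x => G x ^ 2, h2]
    linarith
  have h4 := Finset.sum_mul_sq_le_sq_mul_sq univ R fun y => a y * G (y + e) + G (y + e')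
  have p1 : 0 ≤ ∑ y, R y ^ 2 := Finset.sum_nonneg fun _ _ => sq_nonneg _
  have p2 : 0 ≤ ∑ y, (a y * G (y + e) + G (y + e')) ^ 2 :=
    Finset.sum_nonneg fun _ _ => sq_nonneg _
  have H0 : 0 ≤ H := by linarith
  have L0 : 0 ≤ L := by linarith
  rw [h1]
  refine abs_le_of_sq_le_sq' ?_ (by positivity) |> abs_le.2
  have h5 : (20 * (√L * √H)) ^ 2 = 400 * (L * H) := by
    rw [mul_pow, mul_pow, Real.sq_sqrt L0, Real.sq_sqrt H0]; norm_num
  rw [h5]
  refine h4.trans ((mul_le_mul hH h3 p2 (by linarith)).trans ?_)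
  nlinarith [mul_nonneg L0 H0]

omit [NeZero M] in
theorem uu_le (B : Finset (Tor M)) (g : Tor M × Fin 4 → ℝ) :
    ∑ x ∈ B, uu g x ^ 2 ≤ 4 * l2sq B g := by
  unfold l2sq
  rw [Finset.mul_sum]
  refine Finset.sum_le_sum fun x _ => ?_
  have k := sq4_le (-g (x, 0)) (g (x, 1)) (g (x, 2)) (g (x, 3))
  rw [neg_sq] at k
  rw [Fin.sum_univ_four]
  exact k

omit [NeZero M] in
theorem vv_le (B : Finset (Tor M)) (g : Tor M × Fin 4 → ℝ) :
    ∑ x ∈ B, vv g x ^ 2 ≤ 4 * l2sq B g := by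
  unfold l2sq
  rw [Finset.mul_sum]
  refine Finset.sum_le_sum fun x _ => ?_
  have k := sq4_le (-g (x, 0)) (-g (x, 1)) (-g (x, 2)) (g (x, 3))
  rw [neg_sq, neg_sq, neg_sq, ← sub_eq_add_neg, ← sub_eq_add_neg] at k
  rw [Fin.sum_univ_four]
  exact k

theorem fl_le {A : Gauge M} (hA : IsSign A) (g : Tor M × Fin 4 → ℝ) (B : Finset (Tor M))
    (hB : ∀ s, s.1 ∉ B → (Dm A *ᵥ g) s = 0) : ∑ y, fl A (uu g) (vv g) y ≤
      40 * (√(l2sq (plus (plus B)) g) * √(l2sq univ (Dm A *ᵥ g))) := by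
  have s1 : ∀ y, r1 A (uu g) (vv g) y ≠ 0 → y + uv M 1 ∈ plus B := by
    intro y hy
    by_contra hn
    apply hy
    have n1 : y + uv M 1 ∉ B := fun h => hn (mem_plus h (Or.inl rfl))
    have n2 : y + uv M 0 + uv M 1 ∉ B := fun h => hn (mem_plus h (Or.inr (Or.inr (Or.inl
      (by abel)))))
    have n3 : y ∉ B := fun h => hn (mem_plus h (Or.inr (Or.inr (Or.inr (Or.inl rfl)))))
    rw [r1_eq hA, hB (_, 0) n1, hB (_, 2) n2, hB (_, 3) n1, hB (_, 1) n3]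
    ring
  have s2 : ∀ y, r2 A (uu g) (vv g) y ≠ 0 → y + uv M 0 ∈ plus B := by
    intro y hy
    by_contra hn
    apply hy
    have n1 : y + uv M 0 ∉ B := fun h => hn (mem_plus h (Or.inl rfl))
    have n2 : y + uv M 0 + uv M 1 ∉ B := fun h => hn (mem_plus h (Or.inr (Or.inr (Or.inr
      (Or.inr (by abel))))))
    have n3 : y ∉ B := fun h => hn (mem_plus h (Or.inr (Or.inl rfl)))
    rw [r2_eq hA, hB (_, 1) n1, hB (_, 3) n2, hB (_, 2) n1, hB (_, 0) n3]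
    ring
  have k1 := cs_le (F := vv g) (a := fun y => A (y + uv M 1, 0)) (fun y => E4.sign_sq hA _)
    (uv M 0 + uv M 1) (uv M 1) (plus (plus B))
    (fun y hy => ⟨mem_plus (s1 y hy) (Or.inr (Or.inl (by abel))),
      mem_plus (s1 y hy) (Or.inl rfl)⟩) (r1_le hA g) (vv_le _ g)
  have k2 := cs_le (F := uu g) (a := fun y => A (y, 0)) (fun y => E4.sign_sq hA _)
    0 (uv M 0) (plus (plus B))
    (fun y hy => ⟨mem_plus (s2 y hy) (Or.inr (Or.inr (Or.inl (by abel)))),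
      mem_plus (s2 y hy) (Or.inl rfl)⟩) (r2_le hA g) (uu_le _ g)
  rw [fl_eq hA]
  simp only [← add_assoc, add_zero] at k1 k2
  simp only [mul_neg, Finset.sum_neg_distrib, add_comm (uu g _) (A _ * _)]
  have l1 := (abs_le.1 k1).1
  have l2 := (abs_le.1 k2).2
  linarith

end E1

/-- The energy estimate in an arbitrary gauge field. -/
theorem energy_a : ∃ C : ℝ, 1 ≤ C ∧ ∀ (M : ℕ) [NeZero M] (A : Gauge M), IsSign A →
    ∀ (φ : Tor M × Fin 4 → ℝ) (B : Finset (Tor M)), (∀ s, s.1 ∉ B → (Dm A *ᵥ φ) s = 0) →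
    gradsq A univ φ ≤ C * (l2sq univ (Dm A *ᵥ φ) +
      √(l2sq (plus (plus B)) φ) * √(l2sq univ (Dm A *ᵥ φ))) := by
  refine ⟨3200, by norm_num, fun M _ A hA φ B hB => ?_⟩
  have h1 := E1.main_le hA φ
  have h2 := E1.fl_le hA φ B hB
  have h3 := E1.l2sq_nonneg univ (Dm A *ᵥ φ)
  linarith

/-- Coercivity for fields that vanish at the corners of the fluxes. -/
theorem energy_b : ∃ C : ℝ, 1 ≤ C ∧ ∀ (M : ℕ) [NeZero M] (A : Gauge M), IsSign A →
    ∀ φ : Tor M × Fin 4 → ℝ, (∀ f, flux A f = -1 → cnr f ⬝ᵥ φ = 0) →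
    gradsq A univ φ ≤ C * l2sq univ (Dm A *ᵥ φ) := by
  refine ⟨2136, by norm_num, fun M _ A hA φ hφ => ?_⟩
  have h1 := E1.main_le hA φ
  have h2 : ∑ y, E1.fl A (E1.uu φ) (E1.vv φ) y = 0 := by
    refine Finset.sum_eq_zero fun y _ => ?_
    have h3 := hφ y
    rw [E4.cnr_dot] at h3
    unfold E1.fl E1.uu
    unfold flux at h3
    by_cases h4 : A (y, 0) * A (y + uv M 0, 1) * A (y + uv M 1, 0) * A (y, 1) = -1
    · rw [h3 h4]; ring
    · have h5 : A (y, 0) * A (y + uv M 0, 1) - A (y + uv M 1, 0) * A (y, 1) = 0 := by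
        rcases hA (y, 0) with a | a <;> rcases hA (y + uv M 0, 1) with b | b <;>
          rcases hA (y + uv M 1, 0) with c | c <;> rcases hA (y, 1) with d | d <;>
          rw [a, b, c, d] at h4 ⊢ <;> revert h4 <;> norm_num
      rw [h5]; ring
  rw [h2] at h1
  linarith

end Vale.Agent.P144Z
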