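import Vale.Agent.P144Z.E4.Ops
import Vale.Agent.P144Z.G.Basic

/-!
Cut-offs, locality and local solvability.
-/

namespace Vale.Agent.P144Z

open Finset Matrix

namespace E1

variable {M : ℕ} [NeZero M]

theorem sum_shift (F : Tor M → ℝ) (e : Tor M) : ∑ x, F (x + e) = ∑ x, F x :=
  Equiv.sum_comp (Equiv.addRight e) F

theorem sum_shift' (F : Tor M → ℝ) (e : Tor M) : ∑ x, F (x - e) = ∑ x, F x :=
  Equiv.sum_comp (Equiv.subRight e) F

theorem sq2 : √2 * √2 = (2 : ℝ) := Real.mul_self_sqrt (by norm_num)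

theorem tc_sq : tc ^ 2 ≤ 1 := by
  have h := sq2
  have h0 : (0 : ℝ) ≤ √2 := Real.sqrt_nonneg _
  unfold tc
  nlinarith

omit [NeZero M] in
theorem l2sq_nonneg (B : Finset (Tor M)) (g : Tor M × Fin 4 → ℝ) : 0 ≤ l2sq B g :=
  Finset.sum_nonneg fun _ _ => Finset.sum_nonneg fun _ _ => sq_nonneg _

theorem l2sq_univ (g : Tor M × Fin 4 → ℝ) : l2sq univ g = g ⬝ᵥ g := by
  unfold l2sq dotProduct
  rw [Fintype.sum_prod_type (fun s => g s * g s)]
  simp only [sq]

theorem near_add (x z : Tor M) (i : Fin 2) : tdist (x + uv M i) z ≤ tdist x z + 1 := by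
  have h1 := tdist_triangle (x + uv M i) x z
  have h2 := tdist_uv x i
  omega

theorem near_add' (x z : Tor M) (i : Fin 2) : tdist x z ≤ tdist (x + uv M i) z + 1 := by
  have h1 := tdist_triangle x (x + uv M i) z
  have h2 := tdist_uv x i
  rw [tdist_comm] at h2
  omega

theorem near_sub (x z : Tor M) (i : Fin 2) : tdist (x - uv M i) z ≤ tdist x z + 1 := by
  have h := near_add' (x - uv M i) z i
  rwa [sub_add_cancel] at h

omit [NeZero M] in
theorem Dm_anti (A : Gauge M) : (Dm A)ᵀ = -Dm A := by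
  ext s t
  have h : sA t.2 s.2 = -sA s.2 t.2 := by
    unfold sA
    rcases lt_trichotomy s.2 t.2 with h | h | h
    · simp [h, h.not_gt]
    · simp [h]
    · simp [h, h.not_gt]
  simp only [Dm, Matrix.transpose_apply, Matrix.neg_apply, Matrix.of_apply]
  by_cases e : s.1 = t.1
  · rw [if_pos e, if_pos e.symm, h]; ring
  · rw [if_neg e, if_neg (Ne.symm e)]; ring

/-- One term of the commutator. -/
theorem comm_le {t a d b y : ℝ} (ht : t ^ 2 ≤ 1) (ha : a * a = 1) (hd : |d| ≤ b) {P : Prop}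
    [Decidable P] (hP : d ≠ 0 → P) : (t * (a * d * y)) ^ 2 ≤ b ^ 2 * (if P then y ^ 2 else 0) := by
  by_cases h : d = 0
  · rw [h]
    have : 0 ≤ b ^ 2 * (if P then y ^ 2 else 0) := by positivity
    simpa using this
  · rw [if_pos (hP h)]
    have h1 : d ^ 2 ≤ b ^ 2 := by rw [← sq_abs d]; exact pow_le_pow_left₀ (abs_nonneg _) hd 2
    have h2 : (t * (a * d * y)) ^ 2 = t ^ 2 * (d ^ 2 * y ^ 2) := by
      linear_combination (t ^ 2 * d ^ 2 * y ^ 2) * ha
    rw [h2]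
    have h3 : d ^ 2 * y ^ 2 ≤ b ^ 2 * y ^ 2 := mul_le_mul_of_nonneg_right h1 (sq_nonneg _)
    have h4 : t ^ 2 * (d ^ 2 * y ^ 2) ≤ 1 * (d ^ 2 * y ^ 2) :=
      mul_le_mul_of_nonneg_right ht (by positivity)
    linarith

end E1

/-- The commutator with a cut-off. -/
theorem l2sq_cutoff : ∃ C : ℝ, 1 ≤ C ∧ ∀ (M : ℕ) [NeZero M] (A : Gauge M), IsSign A →
    ∀ (η : Tor M → ℝ) (b : ℝ), (∀ x i, |η (x + uv M i) - η x| ≤ b) →
    ∀ (B : Finset (Tor M)), (∀ x i, η (x + uv M i) ≠ η x → x ∈ B ∧ x + uv M i ∈ B) →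
    ∀ φ : Tor M × Fin 4 → ℝ, l2sq univ (Dm A *ᵥ (fun s => η s.1 * φ s) -
      fun s => η s.1 * (Dm A *ᵥ φ) s) ≤ C * b ^ 2 * l2sq B φ := by
  refine ⟨1, le_rfl, fun M _ A hA η b hb B hB φ => ?_⟩
  set F : Fin 4 → Tor M → ℝ := fun a x => b ^ 2 * (if x ∈ B then φ (x, a) ^ 2 else 0) with hF
  have key : ∀ x : Tor M, ∑ a, (Dm A *ᵥ (fun s => η s.1 * φ s) -
      fun s => η s.1 * (Dm A *ᵥ φ) s : Tor M × Fin 4 → ℝ) (x, a) ^ 2 ≤
      F 2 (x + uv M 0) + F 3 (x + uv M 1) + F 0 (x - uv M 0) + F 1 (x - uv M 1) := by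
    intro x
    rw [Fin.sum_univ_four]
    simp only [Pi.sub_apply, E4.Dm0, E4.Dm1, E4.Dm2, E4.Dm3]
    have h0 := E1.comm_le (y := φ (x + uv M 0, 2)) E1.tc_sq (E4.sign_sq hA (x, 0)) (hb x 0)
      (P := x + uv M 0 ∈ B) fun h => (hB x 0 (sub_ne_zero.1 h)).2
    have h1 := E1.comm_le (y := φ (x + uv M 1, 3)) E1.tc_sq (E4.sign_sq hA (x, 1)) (hb x 1)
      (P := x + uv M 1 ∈ B) fun h => (hB x 1 (sub_ne_zero.1 h)).2
    have h2 := E1.comm_le (y := φ (x - uv M 0, 0)) E1.tc_sq (E4.sign_sq hA (x - uv M 0, 0))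
      (hb (x - uv M 0) 0) (P := x - uv M 0 ∈ B) fun h => (hB _ 0 (sub_ne_zero.1 h)).1
    have h3 := E1.comm_le (y := φ (x - uv M 1, 1)) E1.tc_sq (E4.sign_sq hA (x - uv M 1, 1))
      (hb (x - uv M 1) 1) (P := x - uv M 1 ∈ B) fun h => (hB _ 1 (sub_ne_zero.1 h)).1
    rw [sub_add_cancel] at h2 h3
    simp only [hF]
    refine le_of_eq_of_le ?_ (add_le_add (add_le_add (add_le_add h0 h1) h2) h3)
    ring
  refine (Finset.sum_le_sum fun x _ => key x).trans (le_of_eq ?_)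
  simp only [Finset.sum_add_distrib, E1.sum_shift, E1.sum_shift']
  simp only [hF, ← Finset.mul_sum, Finset.sum_ite_mem, Finset.univ_inter, l2sq, Fin.sum_univ_four,
    Finset.sum_add_distrib]
  ring

/-- A Lipschitz cut-off between two squares. -/
theorem exists_cutoff {M : ℕ} [NeZero M] (z : Tor M) (r : ℕ) {w : ℕ} (hw : 1 ≤ w) :
    ∃ η : Tor M → ℝ, (∀ x, 0 ≤ η x ∧ η x ≤ 1) ∧ (∀ x, tdist x z ≤ r → η x = 1) ∧
      (∀ x, r + w ≤ tdist x z → η x = 0) ∧ ∀ x i, |η (x + uv M i) - η x| ≤ 1 / w := by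
  have w0 : (0 : ℝ) < w := by exact_mod_cast hw
  refine ⟨fun x => ((min w (r + w - tdist x z) : ℕ) : ℝ) / w, fun x => ⟨by positivity, ?_⟩,
    fun x hx => ?_, fun x hx => ?_, fun x i => ?_⟩
  · rw [div_le_one w0]
    exact_mod_cast min_le_left _ _
  · beta_reduce
    rw [min_eq_left (by omega)]
    exact div_self w0.ne'
  · beta_reduce
    rw [Nat.sub_eq_zero_of_le hx]
    simp
  · rw [← sub_div, abs_div, abs_of_pos w0]
    refine div_le_div_of_nonneg_right ?_ w0.le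
    have h1 := E1.near_add x z i
    have h2 := E1.near_add' x z i
    have h3 : min w (r + w - tdist (x + uv M i) z) ≤ min w (r + w - tdist x z) + 1 := by omega
    have h4 : min w (r + w - tdist x z) ≤ min w (r + w - tdist (x + uv M i) z) + 1 := by omega
    have h5 := (Nat.cast_le (α := ℝ)).2 h3
    have h6 := (Nat.cast_le (α := ℝ)).2 h4
    rw [Nat.cast_add, Nat.cast_one] at h5 h6
    rw [abs_le]
    constructor <;> linarith

/-- The equation is local. -/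
theorem Dm_local {M : ℕ} [NeZero M] (A : Gauge M) {φ φ' : Tor M × Fin 4 → ℝ} {z : Tor M} {r : ℕ}
    (k : ℕ) (h : ∀ s, tdist s.1 z ≤ r + k → φ s = φ' s) (s : Tor M × Fin 4)
    (hs : tdist s.1 z ≤ r) : ((Dm A ^ k) *ᵥ φ) s = ((Dm A ^ k) *ᵥ φ') s := by
  induction k generalizing r s with
  | zero => simpa using h s (by simpa using hs)
  | succ k ih =>
    have e : ∀ t : Tor M × Fin 4, tdist t.1 z ≤ r + 1 →
        ((Dm A ^ k) *ᵥ φ) t = ((Dm A ^ k) *ᵥ φ') t :=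
      fun t ht => ih (r := r + 1) (fun u hu => h u (by omega)) t ht
    obtain ⟨x, a⟩ := s
    simp only at hs
    have n0 := E1.near_add x z 0
    have n1 := E1.near_add x z 1
    have m0 := E1.near_sub x z 0
    have m1 := E1.near_sub x z 1
    rw [pow_succ', ← Matrix.mulVec_mulVec, ← Matrix.mulVec_mulVec, E4.Dm_apply, E4.Dm_apply,
      e (x + uv M 0, 2) (by simp only; omega), e (x + uv M 1, 3) (by simp only; omega),
      e (x - uv M 0, 0) (by simp only; omega), e (x - uv M 1, 1) (by simp only; omega)]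
    congr 1
    exact Finset.sum_congr rfl fun b _ => by rw [e (x, b) (by simp only; omega)]

/-- Local solvability from an a priori estimate. -/
theorem exists_solve {M : ℕ} [NeZero M] (A : Gauge M) (B : Finset (Tor M))
    (s : Tor M × Fin 4 → ℝ) {c : ℝ} (hc : 0 ≤ c)
    (h : ∀ ζ : Tor M × Fin 4 → ℝ, (∀ t, t.1 ∉ B → ζ t = 0) →
      (s ⬝ᵥ ζ) ^ 2 ≤ c * l2sq univ (Dm A *ᵥ ζ)) :
    ∃ w : Tor M × Fin 4 → ℝ, l2sq univ w ≤ c ∧ ∀ t, t.1 ∈ B → (Dm A *ᵥ w) t = s t := by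
  classical
  set P : Matrix (Tor M × Fin 4) (Tor M × Fin 4) ℝ :=
    Matrix.diagonal fun t => if t.1 ∈ B then 1 else 0 with hP
  have Pv : ∀ (v : Tor M × Fin 4 → ℝ) t, (P *ᵥ v) t = if t.1 ∈ B then v t else 0 := by
    intro v t
    rw [hP, Matrix.mulVec_diagonal]
    split_ifs <;> simp
  have PT : Pᵀ = P := Matrix.diagonal_transpose _
  set N := Dm A * P with hN
  -- the range of the symmetric matrix `Nᵀ * N` contains `P s`
  have hr : P *ᵥ s ∈ LinearMap.range (Matrix.toLin' (Nᵀ * N)) := by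
    by_contra hn
    obtain ⟨l, hl1, hl2⟩ := Submodule.exists_dual_map_eq_bot_of_notMem hn inferInstance
    set y : Tor M × Fin 4 → ℝ := fun t => l (Pi.single t 1) with hy
    have ly : ∀ v, l v = y ⬝ᵥ v := by
      intro v
      conv_lhs => rw [pi_eq_sum_univ' v]
      simp only [map_sum, map_smul, smul_eq_mul, dotProduct, hy, mul_comm]
    have h0 : l ((Nᵀ * N) *ᵥ y) = 0 := by
      have : l ((Nᵀ * N) *ᵥ y) ∈ Submodule.map l (LinearMap.range (Matrix.toLin' (Nᵀ * N))) :=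
        Submodule.mem_map_of_mem ⟨y, Matrix.toLin'_apply _ _⟩
      rwa [hl2, Submodule.mem_bot] at this
    rw [ly, ← Matrix.mulVec_mulVec, Matrix.dotProduct_mulVec, Matrix.vecMul_transpose] at h0
    have h1 := h (P *ᵥ y) fun t ht => by rw [Pv, if_neg ht]
    rw [Matrix.mulVec_mulVec, ← hN, E1.l2sq_univ, h0, mul_zero] at h1
    apply hl1
    rw [ly, Matrix.dotProduct_mulVec, ← PT, Matrix.vecMul_transpose, dotProduct_comm]
    exact pow_eq_zero_iff (two_ne_zero) |>.1 (le_antisymm h1 (sq_nonneg _))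
  obtain ⟨y, hy⟩ := hr
  rw [Matrix.toLin'_apply] at hy
  refine ⟨-(N *ᵥ y), ?_, fun t ht => ?_⟩
  · have h1 := h (P *ᵥ y) fun t ht => by rw [Pv, if_neg ht]
    rw [Matrix.mulVec_mulVec, ← hN] at h1
    have h2 : s ⬝ᵥ P *ᵥ y = l2sq univ (N *ᵥ y) := by
      rw [E1.l2sq_univ, Matrix.dotProduct_mulVec, ← PT, Matrix.vecMul_transpose, ← hy,
        ← Matrix.mulVec_mulVec, Matrix.mulVec_transpose, ← Matrix.dotProduct_mulVec]
    have h3 : l2sq univ (-(N *ᵥ y)) = l2sq univ (N *ᵥ y) := by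
      rw [E1.l2sq_univ, E1.l2sq_univ, neg_dotProduct_neg]
    rw [h3]
    rw [h2] at h1
    have h4 := E1.l2sq_nonneg univ (N *ᵥ y)
    by_contra hlt
    have h5 := not_le.1 hlt
    nlinarith
  · have h1 := congrFun hy t
    rw [← Matrix.mulVec_mulVec, hN, Matrix.transpose_mul, PT, E1.Dm_anti, ← Matrix.mulVec_mulVec,
      Pv, Pv, if_pos ht, if_pos ht, Matrix.neg_mulVec, ← Matrix.mulVec_neg] at h1
    exact h1

end Vale.Agent.P144Z
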